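import Vale.Agent.P307.R2.H427.Chart2
import Vale.Agent.P307.R2.H732.TmStd

/-!
Tameness of the types over the unions of the faces of the standard families of a chart.
-/

set_option linter.unusedSectionVars false

universe u v

open FirstOrder Cardinal Set

namespace Vale.Agent.P307.R2.H302

open Vale.Agent.P307 Vale.Agent.P307.H304 Vale.Agent.P307.R2.H287 Vale.Agent.P307.R2.H1
  Vale.Agent.P307.R2.H806 Vale.Agent.P307.R2.H971 Vale.Agent.P307.R2.H541
  Vale.Agent.P307.R2.H541.PG Language.Structure Language.Substructure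
open Vale.Agent.P307.R2.H68 (part Blk)
open Vale.Agent.P307.R2.H533 (iun ibd)
open Vale.Agent.P307.R2.H427
open Vale.Agent.P307.R2.H514 (tH)

open scoped Classical

variable {ι : Type v} {L : Language.{u, u}} {K : AEC L} {ℓ θ σ : Cardinal.{u}}
  {κf α : Cardinal.{u} → Cardinal.{u}} {C : Type u} [L.Structure C]

/-- The separating points of a chart: one point between the long part and the top block, and one
point after the top block, of every region. -/
def sep (c : Chart ι K ℓ θ σ C) (β : Blk σ) : Set (Reg θ c.m ×ₗ Blk σ) :=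
  (range fun i : ULift.{u} (Fin c.m) => toLex (rp i.down 1 c.a₀, β)) ∪
    range fun i : ULift.{u} (Fin c.m) => toLex (rp i.down 3 c.a₀, β)

theorem mk_sep_lt (c : Chart ι K ℓ θ σ C) (β : Blk σ) : #(sep c β) < ℵ₀ := by
  have : (sep c β).Finite := (finite_range _).union (finite_range _)
  exact this.lt_aleph0

/-- The points of the faces of the family with the same position with respect to the separating
points are in the same faces. -/
theorem hmix_sep (c : Chart ι K ℓ θ σ C) (β : Blk σ) (b : Finset ι → SuccTy θ)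
    {v v' : Finset ι} {w w' : Reg θ c.m ×ₗ Blk σ} (hw : w ∈ part (c.Sx b v))
    (hw' : w' ∈ part (c.Sx b v')) (h : ∀ a ∈ sep c β, a < w ↔ a < w') :
    w' ∈ part (c.Sx b v) := by
  -- the position of a point with respect to the separating points
  have key : ∀ (z : Reg θ c.m ×ₗ Blk σ) (i : Fin c.m) (k : Fin 4) (x : SuccTy θ),
      (ofLex z).1 = rp i k x → (k = 0 ∨ k = 2) → ∀ j : Fin c.m,
      ((toLex (rp j 1 c.a₀, β) < z ↔ j < i ∨ j = i ∧ k = 2) ∧
        (toLex (rp j 3 c.a₀, β) < z ↔ j < i)) := by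
    intro z i k x hz hk j
    constructor
    · rw [Prod.Lex.lt_iff]
      change rp j 1 c.a₀ < (ofLex z).1 ∨ rp j 1 c.a₀ = (ofLex z).1 ∧ _ ↔ _
      rw [hz, rp_lt, rp_inj]
      rcases hk with rfl | rfl
      · have h1 : ¬ (1 : Fin 4) < 0 := by decide
        have h2 : ¬ (1 : Fin 4) = 0 := by decide
        have h3 : ¬ (0 : Fin 4) = 2 := by decide
        tauto
      · have h1 : (1 : Fin 4) < 2 := by decide
        have h2 : ¬ (1 : Fin 4) = 2 := by decide
        tauto
    · rw [Prod.Lex.lt_iff]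
      change rp j 3 c.a₀ < (ofLex z).1 ∨ rp j 3 c.a₀ = (ofLex z).1 ∧ _ ↔ _
      rw [hz, rp_lt, rp_inj]
      rcases hk with rfl | rfl
      · have h1 : ¬ (3 : Fin 4) < 0 := by decide
        have h2 : ¬ (3 : Fin 4) = 0 := by decide
        tauto
      · have h1 : ¬ (3 : Fin 4) < 2 := by decide
        have h2 : ¬ (3 : Fin 4) = 2 := by decide
        tauto
  have form : ∀ {u : Finset ι} {z : Reg θ c.m ×ₗ Blk σ}, z ∈ part (c.Sx b u) →
      ∃ i k x, (ofLex z).1 = rp i k x ∧ (k = 0 ∨ k = 2) := by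
    rintro u z (⟨i, hi⟩ | ⟨i, -, x, -, hx⟩)
    · exact ⟨i, 2, c.a₀, hi, Or.inr rfl⟩
    · exact ⟨i, 0, x, hx, Or.inl rfl⟩
  obtain ⟨i, k, x, hz, hk⟩ := form hw
  obtain ⟨i', k', x', hz', hk'⟩ := form hw'
  have h1 : ∀ j, j < i ↔ j < i' := fun j => by
    rw [← (key w i k x hz hk j).2, ← (key w' i' k' x' hz' hk' j).2]
    exact h _ (Or.inr ⟨⟨j⟩, rfl⟩)
  have h2 : i = i' := by
    rcases lt_trichotomy i i' with h3 | h3 | h3
    · exact absurd ((h1 i).2 h3) (lt_irrefl _)
    · exact h3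
    · exact absurd ((h1 i').1 h3) (lt_irrefl _)
  subst h2
  have h3 : k = 2 ↔ k' = 2 := by
    have h4 := h _ (Or.inl ⟨⟨i⟩, rfl⟩)
    rw [(key w i k x hz hk i).1, (key w' i k' x' hz' hk' i).1] at h4
    have h5 : ¬ i < i := lt_irrefl _
    tauto
  change (ofLex w').1 ∈ c.Sx b v
  rcases hk' with rfl | rfl
  · have h4 : k = 0 := by
      rcases hk with h4 | h4
      · exact h4
      · exact absurd (h3.1 h4) (by decide)
    subst h4
    have h5 : rp i 0 x ∈ c.Sx b v := by
      rw [← hz]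
      exact hw
    have h6 : rp i 0 x' ∈ c.Sx b v' := by
      rw [← hz']
      exact hw'
    rw [hz']
    exact Chart.reg_mem.2 ⟨(Chart.reg_mem.1 h5).1, (Chart.reg_mem.1 h6).2⟩
  · rcases hw' with ⟨j, hj⟩ | ⟨j, -, y, -, hy⟩
    · exact Or.inl ⟨j, hj⟩
    · rw [hz'] at hy
      exact absurd (rp_inj.1 hy).2.1 (by decide)

section

variable (h₀ : BasePt K ℓ κf α θ) (hK : K.IsLS ℓ)
  (hunb : ∀ ν, ν < κf ν ∧ K.CategoricalIn (κf ν)) (hst : Stab K ℓ α (H287.thr κf))
  (hCm : K.mem C) (hs : Sat K θ C) (hCc : #C = Order.succ θ)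

include h₀ hK hunb hst hCm hs hCc

/-- **Tameness over the unions of the faces of the standard families**. -/
theorem _root_.Vale.Agent.P307.R2.H427.Chart.tmL (c : Chart ι K ℓ θ σ C) (b : Finset ι → SuccTy θ) (F : Finset (Finset ι))
    {σ' ρ : Cardinal.{u}} (hσ' : σ' < θ) (hρ : ρ < θ) :
    (pg h₀ hK hunb hst hCm hs hCc).TmL σ' (tH (max ℓ σ')) ρ (iun (c.St b) F) := by
  let β : Blk σ := Classical.arbitrary _
  let φ : ULift.{u} (Fin F.card) → Finset ι := fun k => (F.equivFin.symm k.down).1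
  have hI : θ ≤ #(Reg θ c.m ×ₗ Blk σ) := by
    have h1 : #(part (c.Sx b ∅) : Set (Reg θ c.m ×ₗ Blk σ)) ≤ #(Reg θ c.m ×ₗ Blk σ) := mk_set_le _
    exact (H68.le_mk_part Chart.le_mk_Sx).trans h1
  have h1 := tmL_std h₀ hK hunb hst hCm hs hCc c.E hI c.e hσ'
    (fun k => part (c.Sx b (φ k))) (sep c β) (((mk_sep_lt c β).le.trans hK.1).trans
      (le_max_left _ _)) (fun f w hw _ f' w' hw' _ h => hmix_sep c β b hw hw' h) hρ
  convert h1 using 1
  ext x
  constructor
  · rintro ⟨v, hv, hx⟩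
    refine ⟨ULift.up (F.equivFin ⟨v, hv⟩), ?_⟩
    have h2 : φ (ULift.up (F.equivFin ⟨v, hv⟩)) = v := by
      change (F.equivFin.symm (F.equivFin ⟨v, hv⟩)).1 = v
      rw [Equiv.symm_apply_apply]
    rw [h2]
    exact hx
  · rintro ⟨k, hx⟩
    exact ⟨φ k, (F.equivFin.symm k.down).2, hx⟩

end

end Vale.Agent.P307.R2.H302
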