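import Vale.Agent.P307.R2.H301.Din.Pair
import Vale.Agent.P307.R2.H581.LeBdd

/-!
Pairs of models whose independence from the other models is decided by pieces of bounded size:
pairs generated by finitely many points, and prime chains.
-/

set_option linter.unusedSectionVars false

universe u

open Set Cardinal

namespace Vale.Agent.P307.R2.H302

open Vale.Agent.P307.R2.H541 Vale.Agent.P307.R2.H541.PG Vale.Agent.P307.R2.H650
  Vale.Agent.P307.R2.H301

variable {C : Type u} {M : PG C} {σ τ : Cardinal.{u}} {P A : Set C}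

/-- The independence of `A` over `P` from the models is decided by the pieces of `A` of size at
most `σ`. -/
def BdF (M : PG C) (σ : Cardinal.{u}) (P A : Set C) : Prop :=
  ∀ Q ∈ M.S, P ⊆ Q → (∀ y ⊆ A, #y ≤ σ → M.Ind P y Q) → M.Ind P A Q

theorem BdF.level (h : BdF M σ P A) (hσ : σ ≤ τ) : BdF M τ P A :=
  fun Q hQ hPQ hy => h Q hQ hPQ fun y hyA hyc => hy y hyA (hyc.trans hσ)

theorem image_inv_image (g : Equiv.Perm C) (X : Set C) :
    (g⁻¹ : Equiv.Perm C) '' (g '' X) = X := by
  rw [← image_comp]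
  have : ((g⁻¹ : Equiv.Perm C) ∘ g) = id := by
    funext a
    exact inv_ap g a
  rw [this, image_id]

/-- The images under the group. -/
theorem BdF.map (h : BdF M σ P A) {g : Equiv.Perm C} (hg : g ∈ M.G) :
    BdF M σ (g '' P) (g '' A) := by
  intro Q hQ hPQ hy
  have h1 : g '' ((g⁻¹ : Equiv.Perm C) '' Q) = Q := by
    have := image_inv_image g⁻¹ Q
    rwa [inv_inv] at this
  have h2 : (g⁻¹ : Equiv.Perm C) '' Q ∈ M.S := M.S_inv (M.G.inv_mem hg) hQ
  have h3 : P ⊆ (g⁻¹ : Equiv.Perm C) '' Q := by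
    have := image_mono (f := (g⁻¹ : Equiv.Perm C)) hPQ
    rwa [image_inv_image] at this
  have h4 := h _ h2 h3 fun y hyA hyc => by
    have h5 := H806.ind_map (hy (g '' y) (image_mono hyA) (mk_image_le.trans hyc))
      (H806.le_of_G (M.G.inv_mem hg) fun _ _ => rfl)
    rwa [image_inv_image, image_inv_image] at h5
  have h6 := H806.ind_map h4 (H806.le_of_G hg fun _ _ => rfl)
  rwa [h1] at h6

/-- Pairs generated by finitely many points. -/
theorem bdF_fin {p : Set C} (hp : p.Finite) (hA : M.Atomic A (p ∪ P)) : BdF M ℵ₀ P A :=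
  fun _ _ _ hy => hA.dom (hy p (subset_union_left.trans hA.sub)
    (lt_aleph0_iff_set_finite.2 hp).le)

/-- Prime chains. -/
theorem bdF_pj (hM : M.Calc) (hB : M.Big) (hC : Chn M) (hF : FreeM M) (hPt : Pt1 M)
    (hA : A ∈ M.S) (h : PJ M P A) : BdF M ℵ₀ P A := by
  obtain ⟨κ, _, _, c, Q, hκ, hch, -, rfl⟩ := h
  intro R hR hPR hy
  refine hch.ind_of_fin hM hB hC hF hPt (M.S_card hA).le hκ hR hPR fun x => ?_
  refine hy _ ?_ (lt_aleph0_iff_set_finite.2 (x.finite_toSet.image c)).le
  rintro _ ⟨i, -, rfl⟩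
  exact sub_tot P Q i (hch.mem i)

/-- Independence of models which is decided by pieces of bounded size. -/
theorem bdF_fpr (h : H581.FPr M σ) (hP : P ∈ M.S) (hA : A ∈ M.S) (hPA : P ⊆ A) : BdF M σ P A :=
  fun Q hQ hPQ hy => h P hP A hA Q hQ hPA hPQ hy

end Vale.Agent.P307.R2.H302
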