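import Vale.Agent.P307.R2.H533.ISys
import Vale.Agent.P307.R2.H68.Shift
import Vale.Agent.P307.R2.H541.Inst
import Vale.Agent.P307.R2.H806.Std

/-!
Order reflection of families of sets of indices, and reflection of the families of standard
submodels of a bounded level.
-/

set_option linter.unusedSectionVars false

universe u v

open FirstOrder Cardinal Set

namespace Vale.Agent.P307.R2.H302

open Vale.Agent.P307 Vale.Agent.P307.H304 Vale.Agent.P307.R2.H287 Vale.Agent.P307.R2.H1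
  Vale.Agent.P307.R2.H806 Vale.Agent.P307.R2.H971 Vale.Agent.P307.R2.H541
  Vale.Agent.P307.R2.H541.PG Language.Structure Language.Substructure
open Vale.Agent.P307.R2.H68 (exists_finset_term_of_mem mk_sigma_finset_le)
open Vale.Agent.P307.R2.H533 (iun)

open scoped Classical

/-- Reflection for a family of faces, for the pieces of size at most `σ`. -/
def IRefL {C : Type u} (M : PG C) {ι : Type v} (σ : Cardinal.{u}) (A : Finset ι → Set C)
    (F : Finset (Finset ι)) : Prop :=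
  ∀ x, ∀ E ⊆ iun A F, #E ≤ σ →
    ∃ g ∈ M.G, ∀ v ∈ F, ∀ e ∈ E, e ∈ A v → g e ∈ A (v.erase x) ∧ (x ∉ v → g e = e)

/-- Order reflection of a family of sets of indices, for the pieces of size at most `σ`. -/
def ORefL {J : Type u} [LinearOrder J] {ι : Type v} (σ : Cardinal.{u}) (V : Finset ι → Set J)
    (F : Finset (Finset ι)) : Prop :=
  ∀ x, ∀ R : Set J, (∀ y ∈ R, ∃ v ∈ F, y ∈ V v) → #R ≤ σ →
    ∃ f : J → J, StrictMonoOn f R ∧
      ∀ v ∈ F, ∀ y ∈ R, y ∈ V v → f y ∈ V (v.erase x) ∧ (x ∉ v → f y = y)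

/-- Families of sets of blocks over a well order: every point of the face `v` has, in the union of
the faces without `x` (or a larger set `G`), a next point, and this point is in the face
`v \ {x}`. -/
theorem orefL_part {Ω : Type u} [LinearOrder Ω] [WellFoundedLT Ω] {ι : Type v} {σ : Cardinal.{u}}
    (hσ : ℵ₀ ≤ σ) {S : Finset ι → Set Ω} {F : Finset (Finset ι)}
    (h : ∀ x, ∃ G : Set Ω, (∀ v ∈ F, x ∉ v → S v ⊆ G) ∧
      ∀ v ∈ F, ∀ y ∈ S v, ∃ g ∈ S (v.erase x), IsLeast {g | g ∈ G ∧ y ≤ g} g) :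
    ORefL σ (fun v => (H68.part (S v) : Set (Ω ×ₗ H68.Blk σ))) F := by
  intro x R hR hRc
  obtain ⟨G, hG, hS⟩ := h x
  obtain ⟨w', h1, h2, h3⟩ := H68.exists_shift (P := PEmpty.{u + 1}) (Q := R) hσ G (by simp) hRc
    (fun p => p.elim) (fun q => q.1) (fun p => p.elim) (fun q => by
      obtain ⟨v, hv, hq⟩ := hR q q.2
      obtain ⟨g, -, hg⟩ := hS v hv _ hq
      exact ⟨g, hg.1.1, hg.1.2⟩)
  refine ⟨fun y => if hy : y ∈ R then w' ⟨y, hy⟩ else y, ?_, ?_⟩
  · intro a ha b hb hab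
    change dite _ _ _ < dite _ _ _
    rw [dif_pos ha, dif_pos hb]
    have h4 := h3 (Sum.inr ⟨b, hb⟩) (Sum.inr ⟨a, ha⟩)
    exact lt_of_not_ge fun h5 => absurd (h4.2 h5) hab.not_ge
  · intro v hv y hy hyv
    obtain ⟨g, hg, hg'⟩ := hS v hv _ hyv
    have h4 : (ofLex (w' ⟨y, hy⟩)).1 = g := (h1 ⟨y, hy⟩).unique hg'
    refine ⟨?_, fun hx => ?_⟩
    · have h5 : (if hy : y ∈ R then w' ⟨y, hy⟩ else y) = w' ⟨y, hy⟩ := dif_pos hy
      have h6 : (ofLex (w' ⟨y, hy⟩)).1 ∈ S (v.erase x) := by rwa [h4]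
      rw [← h5] at h6
      exact h6
    · change dite _ _ _ = y
      rw [dif_pos hy]
      exact h2 ⟨y, hy⟩ (hG v hv hx hyv)

variable {L : Language.{u, u}} {K : AEC L} {ℓ θ : Cardinal.{u}}
  {κf α : Cardinal.{u} → Cardinal.{u}} {C : Type u} [L.Structure C]

section

variable (h₀ : BasePt K ℓ κf α θ) (hK : K.IsLS ℓ)
  (hunb : ∀ ν, ν < κf ν ∧ K.CategoricalIn (κf ν)) (hst : Stab K ℓ α (H287.thr κf))
  (hCm : K.mem C) (hs : Sat K θ C) (hCc : #C = Order.succ θ)

include h₀ hK hunb hst hCm hs hCc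

/-- **Reflection of the standard families**, for the pieces of size at most `σ`, from the order
reflection of the sets of indices. -/
theorem irefL_of_orefL {ι : Type v} {σ : Cardinal.{u}} (hσ : ℓ ≤ σ) (hσθ : σ < θ) {t : Tpl K ℓ}
    {J : Type u} [LinearOrder J] (E : EM t J) (hE : θ ≤ #E.N) (e : E.N ↪[L] C) (he : K.Emb e)
    {V : Finset ι → Set J} {F : Finset (Finset ι)} (hV : ORefL σ V F) :
    IRefL (pg h₀ hK hunb hst hCm hs hCc) σ (fun v => e '' (hullL E (V v) : Set E.N)) F := by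
  intro x D hD hDc
  have hσ0 : ℵ₀ ≤ σ := hK.1.trans hσ
  have hσα : σ ≤ α σ := (hst σ hσ).1
  have hthr : H287.thr κf (α σ) ≤ #E.N := (h₀.pt.thr _ (h₀.al σ hσθ)).le.trans hE
  -- the pairs (face, element)
  let φ : ULift.{u} (Fin F.card) → Finset ι := fun k => (F.equivFin.symm k.down).1
  have hφ : ∀ k, φ k ∈ F := fun k => (F.equivFin.symm k.down).2
  let P : Type u := {p : ULift.{u} (Fin F.card) × C //
    p.2 ∈ D ∧ p.2 ∈ e '' (hullL E (V (φ p.1)) : Set E.N)}
  have hP : #P ≤ σ := by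
    have h1 : #P ≤ #(ULift.{u} (Fin F.card) × D) := by
      refine mk_le_of_injective (f := fun p : P => (p.1.1, (⟨p.1.2, p.2.1⟩ : D))) ?_
      rintro ⟨⟨a, b⟩, h⟩ ⟨⟨a', b'⟩, h'⟩ hab
      simp only [Prod.mk.injEq, Subtype.mk.injEq] at hab
      exact Subtype.ext (Prod.ext hab.1 hab.2)
    refine h1.trans ?_
    rw [mk_prod, lift_id, lift_id]
    refine (mul_le_mul' (lt_aleph0_of_finite _).le hDc).trans ?_
    exact (mul_le_mul' hσ0 le_rfl).trans (mul_eq_self hσ0).le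
  have hz : ∀ p : P, ∃ z : E.N, z ∈ hull E (V (φ p.1.1)) ∧ e z = p.1.2 := fun p => p.2.2
  choose z hzV hze using hz
  choose w s hw hsz using fun p : P => exists_finset_term_of_mem E (hzV p)
  let Q : Type u := Σ p : P, (w p : Set J)
  have hQ : #Q ≤ σ := mk_sigma_finset_le hσ0 w hP
  let q : Q → J := fun a => a.2.1
  let R : Set J := range q
  have hR : #R ≤ σ := mk_range_le.trans hQ
  obtain ⟨f, hf, hfV⟩ := hV x R (by
    rintro _ ⟨a, rfl⟩
    exact ⟨φ a.1.1.1, hφ _, hw a.1 _ a.2.2⟩) hR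
  have hmem : ∀ (p : P) (j : J) (hj : j ∈ w p), j ∈ R := fun p j hj => ⟨⟨p, j, hj⟩, rfl⟩
  have hq : ∀ a b : Q, q a ≤ q b ↔ f (q a) ≤ f (q b) := fun a b =>
    (hf.le_iff_le ⟨a, rfl⟩ ⟨b, rfl⟩).symm
  let s' : ∀ p : P, (exLang L t.Λ).Term Q := fun p => (s p).relabel fun j => ⟨p, j.1, j.2⟩
  have h1 := eqS_pat hK hunb (hσ.trans hσα) E E hthr hthr (hQ.trans hσα) q (fun a => f (q a)) hq
    (hP.trans hσα) s'
  let z' : P → E.N := fun p => (s p).realize fun j => E.c (f j.1)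
  have h2 : (fun p => (s' p).realize fun a => E.c (q a)) = z := by
    funext p
    rw [← hsz p]
    exact Language.Term.realize_relabel
  have h3 : (fun p => (s' p).realize fun a => E.c (f (q a))) = z' := by
    funext p
    exact Language.Term.realize_relabel
  rw [h2, h3] at h1
  have h4 := EqS.map_emb hK hunb (hσ.trans hσα) e he hthr (hP.trans hσα) z
  have h5 := EqS.map_emb hK hunb (hσ.trans hσα) e he hthr (hP.trans hσα) z'
  obtain ⟨g, hg, hgz⟩ := exists_mem_autG h₀ hK hunb hst hCm hs hCc hσ hσθ hP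
    (fun p => e (z p)) (fun p => e (z' p)) ((h4.symm.trans h1).trans h5)
  refine ⟨g, hg, fun v hv c hc hcv => ?_⟩
  obtain ⟨k, hk⟩ : ∃ k, φ k = v := by
    refine ⟨ULift.up (F.equivFin ⟨v, hv⟩), ?_⟩
    change (F.equivFin.symm (F.equivFin ⟨v, hv⟩)).1 = v
    rw [Equiv.symm_apply_apply]
  subst hk
  let p : P := ⟨(k, c), hc, hcv⟩
  have h6 : g c = e (z' p) := by
    rw [← hgz p, hze p]
  constructor
  · refine ⟨z' p, ?_, h6.symm⟩
    refine (mem_closure_image_iff E.c _ _).2 ⟨(s p).relabel fun j =>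
      ⟨f j.1, (hfV _ hv j.1 (hmem p j.1 j.2) (hw p j.1 j.2)).1⟩, ?_⟩
    rw [Language.Term.realize_relabel]
    rfl
  · intro hx
    have h7 : z' p = z p := by
      rw [← hsz p]
      change ((s p).realize fun j => E.c (f j.1)) = _
      congr 1
      funext j
      rw [(hfV _ hv j.1 (hmem p j.1 j.2) (hw p j.1 j.2)).2 hx]
    rw [h6, h7, hze p]

end

end Vale.Agent.P307.R2.H302
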