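import Vale.Agent.P307.R2.H427.Chart2
import Vale.Agent.P307.R2.H302.StdRef

/-!
Reflection of the standard families of a chart at a bounded level.
-/

set_option linter.unusedSectionVars false

universe u v

open FirstOrder Cardinal Set

namespace Vale.Agent.P307.R2.H302

open Vale.Agent.P307 Vale.Agent.P307.H304 Vale.Agent.P307.R2.H287 Vale.Agent.P307.R2.H1
  Vale.Agent.P307.R2.H806 Vale.Agent.P307.R2.H971 Vale.Agent.P307.R2.H541
  Vale.Agent.P307.R2.H541.PG Language.Structure Language.Substructure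
open Vale.Agent.P307.R2.H68 (part Blk)
open Vale.Agent.P307.R2.H533 (iun ibd)
open Vale.Agent.P307.R2.H427

open scoped Classical

variable {ι : Type v} {L : Language.{u, u}} {K : AEC L} {ℓ θ σ : Cardinal.{u}}
  {κf α : Cardinal.{u} → Cardinal.{u}} {C : Type u} [L.Structure C]

/-- Next points in the family of the sets of regions of a chart. -/
theorem next_Sx (c : Chart ι K ℓ θ σ C) (b : Finset ι → SuccTy θ) (F : Finset (Finset ι))
    (x : ι) : ∃ G : Set (Reg θ c.m), (∀ v ∈ F, x ∉ v → c.Sx b v ⊆ G) ∧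
      ∀ v ∈ F, ∀ y ∈ c.Sx b v, ∃ g ∈ c.Sx b (v.erase x), IsLeast {g | g ∈ G ∧ y ≤ g} g := by
  refine ⟨{p | (∃ i, p = rp i 2 c.a₀) ∨ ∃ i, x ∉ c.r i ∧ ∃ z, p = rp i 0 z}, ?_, ?_⟩
  · rintro v - hx p (hp | ⟨i, hi, z, -, hz⟩)
    · exact Or.inl hp
    · exact Or.inr ⟨i, fun h => hx (hi h), z, hz⟩
  · rintro v - y (⟨i, rfl⟩ | ⟨i, hi, z, hz, rfl⟩)
    · exact ⟨_, Chart.top_mem i, ⟨Or.inl ⟨i, rfl⟩, le_rfl⟩, fun g hg => hg.2⟩
    · by_cases hx : x ∈ c.r i
      · refine ⟨_, Chart.top_mem i, ⟨Or.inl ⟨i, rfl⟩, ?_⟩, ?_⟩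
        · exact rp_le.2 (Or.inr ⟨rfl, Or.inl (by decide)⟩)
        · rintro g ⟨⟨j, rfl⟩ | ⟨j, hj, z', rfl⟩, hg⟩
          · rcases rp_le.1 hg with h | h
            · exact rp_le.2 (Or.inl h)
            · exact rp_le.2 (Or.inr ⟨h.1, Or.inr ⟨rfl, le_rfl⟩⟩)
          · rcases rp_le.1 hg with h | h
            · exact rp_le.2 (Or.inl h)
            · exact absurd (h.1 ▸ hx) hj
      · refine ⟨_, Chart.reg_mem.2 ⟨?_, hz⟩, ⟨Or.inr ⟨i, hx, z, rfl⟩, le_rfl⟩, fun g hg => hg.2⟩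
        exact fun a ha => Finset.mem_erase.2 ⟨fun h => hx (h ▸ ha), hi ha⟩

/-- Order reflection of the index sets of a chart. -/
theorem orefL_Sx (hσ : ℵ₀ ≤ σ) (c : Chart ι K ℓ θ σ C) (b : Finset ι → SuccTy θ)
    (F : Finset (Finset ι)) :
    ORefL σ (fun v => (part (c.Sx b v) : Set (Reg θ c.m ×ₗ Blk σ))) F :=
  orefL_part hσ (next_Sx c b F)

section

variable (h₀ : BasePt K ℓ κf α θ) (hK : K.IsLS ℓ)
  (hunb : ∀ ν, ν < κf ν ∧ K.CategoricalIn (κf ν)) (hst : Stab K ℓ α (H287.thr κf))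
  (hCm : K.mem C) (hs : Sat K θ C) (hCc : #C = Order.succ θ)

include h₀ hK hunb hst hCm hs hCc

/-- **The standard families of a chart reflect at the level of the chart**. -/
theorem _root_.Vale.Agent.P307.R2.H427.Chart.irefL (hσ : ℓ ≤ σ) (hσθ : σ < θ)
    (c : Chart ι K ℓ θ σ C) (b : Finset ι → SuccTy θ) (F : Finset (Finset ι)) :
    IRefL (pg h₀ hK hunb hst hCm hs hCc) σ (c.St b) F := by
  have hI : θ ≤ #c.E.N := by
    refine (le_mk_hullL c.E (H68.le_mk_part (Chart.le_mk_Sx (c := c) (b := b) (v := ∅)))).trans ?_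
    exact mk_set_le _
  exact irefL_of_orefL h₀ hK hunb hst hCm hs hCc hσ hσθ c.E hI c.e.toEmbedding
    (AEC.Emb.of_equiv c.e c.E.mem) (orefL_Sx (hK.1.trans hσ) c b F)

end

end Vale.Agent.P307.R2.H302
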